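import Crest.Agent.N255.Vz.Defs
import Crest.Agent.N255.Lz.Vx
import Crest.Agent.N255.Dt.Abs

/-!
# Row 255 (helper88): the scalar facts on the zones of a vertex
-/

set_option autoImplicit false
open Set

noncomputable section

namespace Crest.Agent.N255.Vz

open Tp Wn Vc Mv

variable {X ι : Type} [TopologicalSpace X] {k : Type} [Field k]

/-- commutation of the caps -/
theorem com_of {κ : Type} [Fintype κ] {P : κ → Sb X} {ρ : κ → Ch k 4 X} (hρ : ∀ j, ρ j ∈ (P j).ch k 4)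
    {Q : Sb X} (hb : bd k (∑ j, ρ j) ∈ Q.ch k 3) {q u : Co k 2 X} (hq : ∀ j, q ∈ (P j).Z k k 2)
    (h : ∀ j, q ∈ (P j).van k k 2 ∨ u ∈ (P j).Z k k 2)
    (h' : ∀ j, ∀ σ ∈ ((P j).inf Q).S 3, ∃ T : Sb X, σ ∈ T.S 3 ∧ (q ∈ T.van k k 2 ∨ u ∈ T.van k k 2)) :
    ev k u (cap 2 q (∑ j, ρ j)) = ev k u (cap' 2 q (∑ j, ρ j)) := by
  have e := congrArg (fun φ => ev k φ (∑ j, ρ j))
    (cob_cup1 (LinearMap.mul k k) (n := 3) (i := 2) (j := 2) rfl q u)
  have z : ∀ {φ : Co k 4 X}, (∀ j, φ ∈ (P j).van k k 4) → ev k φ (∑ j, ρ j) = 0 := fun h => by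
    rw [map_sum]; exact Finset.sum_eq_zero fun j _ => Sb.ev_eq_zero (h j) (hρ j)
  have z1 := z fun j => cup1_van_left (LinearMap.mul k k) 4 (Sb.mem_Z.1 (hq j)) u
  have z2 := z (φ := cup1 (LinearMap.mul k k) 4 q (cob k u)) fun j => (h j).elim
    (fun h => cup1_van_left _ 4 h _) fun h => cup1_van_right _ 4 _ (Sb.mem_Z.1 h)
  have z3 : ev k (cup1 (LinearMap.mul k k) 3 q u) (bd k (∑ j, ρ j)) = 0 := by
    have : bd k (∑ j, ρ j) ∈ Finsupp.supported k k (⋃ j, (P j).S 3) := by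
      rw [map_sum]
      exact sum_mem fun j _ => Finsupp.supported_mono (subset_iUnion (fun j => (P j).S 3) j)
        (Sb.bd_mem (hρ j))
    rw [ev, Finsupp.linearCombination_apply]
    refine Finset.sum_eq_zero fun σ hσ => ?_
    obtain ⟨j, hj⟩ := mem_iUnion.1 (this hσ)
    obtain ⟨T, hT, h | h⟩ := h' j σ ⟨hj, hb hσ⟩
    · exact smul_eq_zero_of_right _ (cup1_van_left _ 3 h u σ hT)
    · exact smul_eq_zero_of_right _ (cup1_van_right _ 3 q h σ hT)
  simp only [ev_sub, ev_smul, ← ev_bd, z1, z2, z3, mul_flip] at e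
  rw [← per_eq, ← per'_eq, per_mul]
  have e' : per' 4 q u (∑ j, ρ j) = ev k (cup (LinearMap.mul k k) 4 u q) (∑ j, ρ j) := by
    rw [per']; congr 2; funext σ; simp [cup, mul_comm]
  rw [e', ← sub_eq_zero]
  generalize ∑ j, ρ j = c at e
  norm_num at e
  exact e.symm

/-- the far sources: `η a` is the class `h a` of wall `sl a` cut at the level `t a` -/
structure Src (L : Lv X ι) (k : Type) [Field k] (𝒞 : Set (Set X)) (α : Type) where
  sl : α → ι
  pa : α → ℕ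
  t : α → ℝ
  η : α → Co k 1 X
  h : α → Co k 1 X
  pa_lt : ∀ a, pa a < L.n
  c_le : ∀ a, L.c (sl a) ≤ t a
  le : ∀ a, t a ≤ L.l (sl a) (pa a + 1)
  eq : ∀ a, pa a ≠ 0 → t a = L.l (sl a) (pa a + 1)
  l1 : ∀ a, η a ∈ (SB 𝒞 (lo (L.s (sl a)) (t a))).van k k 1
  l2 : ∀ a, η a - h a ∈ (SB 𝒞 (hi (L.s (sl a)) (t a))).van k k 1
  l3 : ∀ a, h a ∈ (SB 𝒞 (hi (L.s (sl a)) (t a))).Z k k 1

namespace Lv

variable (L : Lv X ι)

/-- the far parts of the zones -/
def Fz (𝒞 : Set (Set X)) (K : Set X) (z : L.Ix) : Sb X := (L.P 𝒞 z).inf (On Kᶜ)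

/-- the deep zones -/
def dp (z : L.Ix) : Prop := L.n ≤ L.pos z + 4

/-- simplices off `K` or beyond `l n` -/
def Qb (K : Set X) : Sb X := Sm (insert Kᶜ (range fun i => hi (L.s i) (L.l i L.n)))

variable {L} {i : ι} {m : ℕ}

theorem le_Qb (K : Set X) : (On Kᶜ).Le (L.Qb K) := On_le_Sm (mem_insert _ _)

theorem le_Qb' (K : Set X) (i : ι) : (On (hi (L.s i) (L.l i L.n))).Le (L.Qb K) :=
  On_le_Sm (mem_insert_of_mem _ ⟨i, rfl⟩)

theorem exists_zone {x : X} (h : ∀ i, L.s i x < L.r i) : ∃ z, x ∈ L.zs z := by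
  obtain ⟨U, hU, hx⟩ := L.fs_cover x
  rcases hU with rfl | ⟨i, rfl | rfl | ⟨z, hz, rfl⟩⟩
  exacts [⟨none, core_St hx⟩, ⟨none, win_St le_rfl hx⟩, ⟨L.ce i, sub_ce subset_rfl ⟨hx, h i⟩⟩,
    ⟨_, sub_lt hz subset_rfl hx⟩]

theorem disj_St {z : L.Ix} (h : m ≤ L.pos z) (h0 : 0 < m) : Disjoint (L.zs z) (L.St m) := by
  rcases z with _ | ⟨j, z⟩
  · exact absurd h (by simpa [pos] using h0.ne')
  · exact disjoint_left.2 fun x hx hx' => lt_asymm ((l_le h).trans_lt (zs_hi hx)) (hx' j)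

end Lv

namespace Src

open Vz.Lv

variable {L : Lv X ι} {𝒞 : Set (Set X)} {α : Type} (S : Src L k 𝒞 α)

/-- the sources -/
def q (a : α) : Co k 2 X := cob k (S.η a)

theorem t_pos (a : α) : 0 < S.t a := (L.c0 _).trans_le (S.c_le a)

theorem q_lo (a : α) {W : Set X} (h : W ⊆ lo (L.s (S.sl a)) (S.t a)) :
    S.q a ∈ (SB 𝒞 W).van k k 2 := Sb.van_mono (SB_mono h) (Sb.cob_mem (S.l1 a))

theorem q_hi (a : α) {W : Set X} (h : W ⊆ hi (L.s (S.sl a)) (S.t a)) :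
    S.q a ∈ (SB 𝒞 W).van k k 2 :=
  Sb.van_mono (SB_mono h) (Sb.mem_Z.1 (by simpa using add_mem (Sb.van_le_Z (S.l2 a)) (S.l3 a)))

theorem q_far (a : α) {i : ι} {m : ℕ} (hm : S.pa a < m) {W : Set X} (h : W ⊆ hi (L.s i) (L.l i m)) :
    S.q a ∈ (SB 𝒞 W).van k k 2 := by
  by_cases e : i = S.sl a
  · subst e; exact S.q_hi a (h.trans (hi_mono ((S.le a).trans (l_le hm))))
  · exact S.q_lo a (h.trans (hi_lo e l_pos.le (S.t_pos a).le))

/-- a source lives on the zones of its own position -/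
theorem q_van (a : α) {z : L.Ix} (h : L.pos z ≠ S.pa a) : S.q a ∈ (L.P 𝒞 z).van k k 2 := by
  have hn := S.pa_lt a
  rcases z with _ | ⟨j, z⟩
  · exact S.q_lo a fun x hx => (hx _).trans_le (S.eq a h.symm ▸ l_le (by
      have : S.pa a ≠ 0 := h.symm
      omega))
  have h : (z : ℕ) ≠ S.pa a := h
  rcases lt_or_gt_of_ne h with h | h
  · by_cases e : j = S.sl a
    · subst e
      refine S.q_lo a ((zs_lt (by omega)).le.trans (win_lo.trans (lo_mono ?_)))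
      exact S.eq a (by omega) ▸ l_le (by omega)
    · exact S.q_lo a (zs_hi.trans (hi_lo e l_pos.le (S.t_pos a).le))
  · exact S.q_far a h zs_hi

theorem q_ce (a : α) (i : ι) : S.q a ∈ (L.P 𝒞 (L.ce i)).van k k 2 := S.q_van a (S.pa_lt a).ne'

/-- the zones with the sources -/
def gz0 (i0 : ι) (ρ : L.Ix → Ch k 4 X) : Lz.Gz k X L.Ix α ι where
  P := L.P 𝒞
  PK i := L.P 𝒞 (L.ce i)
  q := S.q
  ρ := ρ
  γ := 4
  pos := L.pos
  pa := S.pa
  sl := L.sl i0
  N1 _ _ := True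
  N2 _ _ := True

/-- **the geometric data of a vertex** -/
def gz (i0 : ι) (K : Set X) (ρ : L.Ix → Ch k 4 X) : Lz.Gz k X L.Ix α ι :=
  { S.gz0 i0 ρ with
    N1 := (S.gz0 i0 ρ).M1 (S.gz0 i0 ρ).NF (L.Fz 𝒞 K) L.dp
    N2 := (S.gz0 i0 ρ).M2 (S.gz0 i0 ρ).NF (L.Fz 𝒞 K) }

variable {i0 : ι} {K K' : Set X} {ρ : L.Ix → Ch k 4 X}

theorem gz_h1 (z : L.Ix) (u : Co k 2 X)
    (h : (S.gz i0 K ρ).M1 (S.gz i0 K ρ).NF (L.Fz 𝒞 K) L.dp z u) : (S.gz i0 K ρ).N1 z u := h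

theorem gz_h2 (z : L.Ix) (u : Co k 2 X)
    (h : (S.gz i0 K ρ).M2 (S.gz i0 K ρ).NF (L.Fz 𝒞 K) z u) : (S.gz i0 K ρ).N2 z u := h

variable [Fintype ι] [T2Space X] [ChartedSpace (EE 4) X] {O : Ori k 3 X}

/-- **the scalar facts** -/
theorem gz_ok (ho : ∀ C ∈ 𝒞, IsOpen C) (hc : univ ⊆ ⋃₀ 𝒞) (hO : O.ND) (hX : Acy k (univ : Set X) univ)
    {r : C(X, ℝ)} (hB : ∀ i R, IsCompact (box (L.s i) r 0 (L.r i) R))
    (sp : ∀ i m, 2 ≤ m → m < L.n → (On (hi (L.s i) (L.l i m))).Z k k 1 ≤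
      Submodule.span k (S.h '' {a | S.pa a ≤ m ∧ S.sl a = i}) ⊔
        (SB 𝒞 (hi (L.s i) (L.l i (m + 2)))).Ex k k 1)
    (cst : ∀ i m, m + 2 < L.n → (On (lo (L.s i) (L.l i (m + 2)))).Z k k 1 ≤
      (SB 𝒞 (lo (L.s i) (L.r i))).Z k k 1 ⊔ (SB 𝒞 (lo (L.s i) (L.l i m))).Ex k k 1)
    (hK : IsCompact K) (hK' : IsCompact K') (hKK : K ∩ L.St L.n ⊆ K')
    (hρ : ∀ z, ρ z ∈ (L.P 𝒞 z).ch k 4) (hf : O.Fund K' (∑ z, ρ z))
    (hb : bd k (∑ z, ρ z) ∈ (L.Qb K).ch k 3) : (S.gz i0 K ρ).Ok where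
  mem := hρ
  cl a z := by
    rw [Sb.mem_Z]; change cob k (cob k _) ∈ _
    rw [cob_cob]; exact zero_mem _
  loc a z h := S.q_van a h.ne'
  com z u h1 h2 a ha := by
    refine com_of hρ hb (fun j => by
      rw [Sb.mem_Z]; change cob k (cob k _) ∈ _
      rw [cob_cob]; exact zero_mem _) (fun j => ?_) fun j σ hσ => ?_
    · by_cases e : L.pos j = S.pa a
      exacts [.inr (h2 j (e.trans_le ha)), .inl (S.q_van a e)]
    by_cases e : L.pos j = S.pa a
    · obtain ⟨_, rfl | ⟨i, rfl⟩, h⟩ := hσ.2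
      · exact ⟨L.Fz 𝒞 K j, ⟨hσ.1, h⟩, .inr (h1.2.1 j (e.trans_le ha))⟩
      · exact ⟨SB 𝒞 _, ⟨h, hσ.1.2⟩, .inl (S.q_far a (S.pa_lt a) subset_rfl)⟩
    · exact ⟨_, hσ.1, .inl (S.q_van a e)⟩
  det1 z u h1 h2 h3 := by
    by_cases hd : L.dp z
    · exact h1.2.2 hd
    have hd : L.pos z + 5 ≤ L.n := not_le.1 hd
    set p := L.pos z
    obtain ⟨θ, t1, t2⟩ := Dt.det1 ho hc hO hX (Z := L.zs) isOpen_zs (s := L.s) (r := r) (a₀ := fun _ => 0)
      (a := fun i => L.l i (p + 2)) (a₂ := fun i => L.l i (p + 4)) (b := fun i => L.l i (p + 5))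
      (fun _ => l_pos.le) (fun _ => l_le (by omega)) (fun _ => l_lt (by omega))
      (fun e e' h x hx => (neg h hx).le)
      (fun i R => (hB i R).of_isClosed_subset isClosed_box (box_mono le_rfl (L.lt _ _).le le_rfl))
      (fun y hy => exists_zone fun i => (hy i).trans_lt (L.lt _ _)) (sl := S.sl) (c := S.t) (η := S.η)
      (h := S.h) (T := {a | S.pa a ≤ p + 2})
      (fun a ha => ⟨S.t_pos a, (S.le a).trans (l_le (by have : S.pa a ≤ p + 2 := ha; omega))⟩)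
      (fun a _ => S.l1 a) (fun a _ => S.l2 a) (fun a _ => S.l3 a)
      (fun i => (sp i (p + 2) (by omega) (by omega)).trans
        (sup_le_sup_left (Sb.Ex_mono (SB_mono win_hi)) _)) hK' hρ hf
      (fun a ha j => by
        have : S.pa a ≤ p + 2 := ha
        by_cases e : L.pos j = S.pa a
        exacts [.inr (zs_St (m := p + 5) (by omega) (by omega)), .inl (S.q_van a e)])
      (u := u) (fun j => by
        rcases le_or_gt (L.pos j) (p + 4) with e | e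
        · refine .inl ⟨h2 j e, Sb.van_mono (Sb.le_inf (SB_mono fun x hx => hx.1.1)
            (Sb.inf_le_left.trans (On_le fun x hx h => ?_))) (h1.2.1 j e)⟩
          exact hx.2 (hKK ⟨h, St_mono hd hx.1.2⟩)
        · exact .inr (disj_St e (by omega)))
      (fun a ha => h3 a (show S.pa a ≤ p + 4 by have : S.pa a ≤ p + 2 := ha; omega)) (j₀ := z)
      fun x hx i => (zs_St (m := p + 2) le_rfl (by omega) hx i).le
    exact h1.1 z θ t1 t2
  det2 z u hz h1 h2 h3 := by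
    rcases z with _ | ⟨i, z⟩
    · exact absurd hz (by simp [gz, gz0, pos])
    have hz : 4 < (z : ℕ) := hz
    rcases eq_or_ne z (Fin.last _) with rfl | hn
    · exact h3
    have hn : (z : ℕ) < L.n := Fin.val_lt_last hn
    obtain ⟨m, hm⟩ : ∃ m, (z : ℕ) = m + 3 := ⟨z - 3, by omega⟩
    obtain ⟨R, hR⟩ := Dt.exists_rad r hK
    obtain ⟨θ, t1, t2⟩ := Dt.det2 ho hc hO hX (Z := L.zs) isOpen_zs (s := L.s i) (r := r) (a := L.l i m)
      (a₁ := L.l i (m + 1)) (a' := L.l i (m + 3)) (b' := L.l i (L.n + 1)) (b := L.l i (L.n + 2)) (R := R)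
      (l_lt (by omega)) (l_le (by omega)) (l_le (by omega)) (l_lt (by omega))
      ((hB i R).of_isClosed_subset isClosed_box (box_mono l_pos.le (L.lt _ _).le le_rfl))
      (fun y y1 y2 => exists_zone fun j => by
        by_cases e : i = j
        · exact e ▸ y2.trans_lt (L.lt _ _)
        · exact (neg e (l_pos.trans_le y1)).trans (l_pos.trans (L.lt j 0)))
      ((cst i (m + 1) (by omega)).trans (sup_le_sup
        (Sb.Z_mono (SB_mono (win_lo.trans (lo_mono (L.lt _ _).le)))) (Sb.Ex_mono (SB_mono win_lo))))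
      (u := u) (fun j => by
        rcases j with _ | ⟨j, y⟩
        · exact .inr (disjoint_left.2 fun x hx hx' =>
            lt_asymm ((hx i).trans_le (l_le (by omega))) hx'.1)
        by_cases e : j = i
        swap
        · exact .inr (disjoint_left.2 fun x hx hx' =>
            lt_asymm (hi_lo e l_pos.le l_pos.le (zs_hi hx)) hx'.1)
        subst e
        rcases le_or_gt (z : ℕ) (y + 4) with q | q
        · have nb : (S.gz i0 K ρ).nb2 (some (j, z)) (some (j, y)) := ⟨q, .inl rfl⟩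
          exact .inl ⟨Sb.Z_mono (SB_mono inter_subset_left) (h2 _ nb), Sb.van_mono (Sb.le_inf
            (SB_mono inter_subset_left) (Sb.inf_le_left.trans (On_le fun x hx => hR hx.2.1)))
            (h1.2 _ nb)⟩
        · exact .inr (disjoint_left.2 fun x hx hx' => lt_asymm
            (((zs_lt (by omega)).le hx).2.trans_le (l_le (by omega))) hx'.1))
      (Sb.van_mono (SB_mono (sub_ce (win_mono (l_le (by omega)) (L.lt _ _).le))) h3) (j₀ := some (i, z))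
      fun x hx => let h := (zs_lt hn).le hx; ⟨(hm ▸ h.1).le, h.2.le.trans (l_le (by omega))⟩
    exact h1.1 _ θ t1 t2

end Src

end Crest.Agent.N255.Vz

end
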